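import Vale.Agent.Lib.P160.RV.Defs
import Vale.Agent.Lib.P160.helper23.BlockVec

/-!
# P160: block exposure count with an abstract fibre bound

`block_count_abs` is `block_count_vec` (helper23) with the fibre bound replaced by an abstract
real number `Bd ≥ 0`: if every linear system `M v = c` over symmetric sign matrices on the block
`T`, with `v` having at least `D` distinct nonzero absolute values, has at most `Bd` solutions,
then a property `P` that forces such a system on the block holds for at most
`Bd * 2 ^ (choose (n + 1) 2 - choose (t + 1) 2)` symmetric sign matrices.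
-/

namespace Vale.Agent.Lib.P160.H16

open Finset Matrix Vale.Agent.Lib.P160

open Classical in
theorem block_count_abs {ι : Type} [Fintype ι] [DecidableEq ι] (T : Finset ι) (D : ℕ) (Bd : ℝ)
    (hBd : 0 ≤ Bd)
    (hc : ∀ (v c : {k // k ∈ T} → ℝ), D ≤ dabs v →
      (((symSet {k // k ∈ T}).filter fun M => toR M *ᵥ v = c).card : ℝ) ≤ Bd)
    (P : Matrix ι ι ℤˣ → Prop) (U b : Matrix ι ι ℤˣ → ι → ℝ)
    (hU : ∀ A ∈ symSet ι, ∀ B ∈ symSet ι, P A → P B →
      (∀ i j, ¬ (i ∈ T ∧ j ∈ T) → A i j = B i j) → U A = U B ∧ b A = b B)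
    (hP : ∀ A ∈ symSet ι, P A →
      (∀ i ∈ T, ∑ j ∈ T, ((A i j : ℤ) : ℝ) * U A j = b A i) ∧
        D ≤ dabs (fun j : {k // k ∈ T} => U A j.1)) :
    (((symSet ι).filter P).card : ℝ) * 2 ^ (Nat.choose (T.card + 1) 2) ≤
      Bd * ((symSet ι).card : ℝ) := by
  set S := (symSet ι).filter P with hS
  have hcardT : Fintype.card {k // k ∈ T} = T.card := Fintype.card_coe T
  -- step 1: fibres of the exposure map are small
  have hfib : ∀ O ∈ S.image (h23out T),
      ((S.filter fun A => h23out T A = O).card : ℝ) ≤ Bd := by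
    intro O hO
    rw [Finset.mem_image] at hO
    obtain ⟨A0, hA0, rfl⟩ := hO
    have hA0s : A0 ∈ symSet ι := (Finset.mem_filter.mp hA0).1
    have hA0P : P A0 := (Finset.mem_filter.mp hA0).2
    have hle : (S.filter fun A => h23out T A = h23out T A0).card ≤
        ((symSet {k // k ∈ T}).filter fun B =>
          toR B *ᵥ (fun j : {k // k ∈ T} => U A0 j.1) = fun i => b A0 i.1).card := by
      apply Finset.card_le_card_of_injOn (h23blk T)
      · intro A hA
        have hA' := Finset.mem_filter.mp (Finset.mem_coe.mp hA)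
        have hAs : A ∈ symSet ι := (Finset.mem_filter.mp hA'.1).1
        have hAP : P A := (Finset.mem_filter.mp hA'.1).2
        have hout : h23out T A = h23out T A0 := hA'.2
        have hag : ∀ i j, ¬ (i ∈ T ∧ j ∈ T) → A i j = A0 i j := by
          intro i j hij
          have := congrFun (congrFun hout i) j
          rw [h23out_of_not T A hij, h23out_of_not T A0 hij] at this
          exact this
        obtain ⟨hUe, hbe⟩ := hU A hAs A0 hA0s hAP hA0P hag
        rw [Finset.mem_coe, Finset.mem_filter]
        refine ⟨h23blk_mem T hAs, ?_⟩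
        funext k
        rw [h23_rowsum_vec, ← hUe, ← hbe]
        exact (hP A hAs hAP).1 k.1 k.2
      · intro A hA A' hA' hb
        have hAo := (Finset.mem_filter.mp (Finset.mem_coe.mp hA)).2
        have hAo' := (Finset.mem_filter.mp (Finset.mem_coe.mp hA')).2
        exact h23_eq_of_out_blk T (hAo.trans hAo'.symm) hb
    have hc' := hc (fun j : {k // k ∈ T} => U A0 j.1) (fun i => b A0 i.1)
      (hP A0 hA0s hA0P).2
    have hle' : ((S.filter fun A => h23out T A = h23out T A0).card : ℝ) ≤
        (((symSet {k // k ∈ T}).filter fun B =>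
          toR B *ᵥ (fun j : {k // k ∈ T} => U A0 j.1) = fun i => b A0 i.1).card : ℝ) := by
      exact_mod_cast hle
    exact hle'.trans hc'
  have h1 : (S.card : ℝ) ≤ Bd * ((S.image (h23out T)).card : ℝ) := by
    have hsum : (S.card : ℝ) =
        ∑ O ∈ S.image (h23out T), ((S.filter fun A => h23out T A = O).card : ℝ) := by
      rw [Finset.card_eq_sum_card_image (h23out T) S]
      push_cast
      rfl
    rw [hsum]
    calc ∑ O ∈ S.image (h23out T), ((S.filter fun A => h23out T A = O).card : ℝ)
        ≤ ∑ _O ∈ S.image (h23out T), Bd := Finset.sum_le_sum hfib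
      _ = Bd * ((S.image (h23out T)).card : ℝ) := by
          rw [Finset.sum_const, nsmul_eq_mul, mul_comm]
  -- step 2: gluing is injective
  have h2 : (S.image (h23out T)).card * (symSet {k // k ∈ T}).card ≤ (symSet ι).card := by
    rw [← Finset.card_product]
    apply Finset.card_le_card_of_injOn (fun p => h23glue T p.1 p.2)
    · intro p hp
      have hp' := Finset.mem_product.mp (Finset.mem_coe.mp hp)
      obtain ⟨A, hA, hAO⟩ := Finset.mem_image.mp hp'.1
      have hAs : A ∈ symSet ι := (Finset.mem_filter.mp hA).1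
      rw [Finset.mem_coe]
      show h23glue T p.1 p.2 ∈ symSet ι
      rw [← hAO]
      exact h23glue_mem T hAs hp'.2
    · intro p hp q hq hpq
      have hp' := Finset.mem_product.mp (Finset.mem_coe.mp hp)
      have hq' := Finset.mem_product.mp (Finset.mem_coe.mp hq)
      obtain ⟨A, hA, hAO⟩ := Finset.mem_image.mp hp'.1
      obtain ⟨A', hA', hAO'⟩ := Finset.mem_image.mp hq'.1
      have hpq' : h23glue T p.1 p.2 = h23glue T q.1 q.2 := hpq
      have hB : p.2 = q.2 := by
        have := congrArg (h23blk T) hpq'
        rwa [h23glue_blk, h23glue_blk] at this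
      have hO : p.1 = q.1 := by
        have := congrArg (h23out T) hpq'
        rw [← hAO, ← hAO', h23glue_out, h23glue_out] at this
        rw [← hAO, ← hAO']
        exact this
      exact Prod.ext hO hB
  rw [card_symSet, hcardT] at h2
  have h2' : ((S.image (h23out T)).card : ℝ) * 2 ^ (Nat.choose (T.card + 1) 2) ≤
      ((symSet ι).card : ℝ) := by
    exact_mod_cast h2
  calc (S.card : ℝ) * 2 ^ (Nat.choose (T.card + 1) 2)
      ≤ (Bd * ((S.image (h23out T)).card : ℝ)) * 2 ^ (Nat.choose (T.card + 1) 2) :=
        mul_le_mul_of_nonneg_right h1 (by positivity)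
    _ = Bd * (((S.image (h23out T)).card : ℝ) * 2 ^ (Nat.choose (T.card + 1) 2)) := by
        ring
    _ ≤ Bd * ((symSet ι).card : ℝ) := mul_le_mul_of_nonneg_left h2' hBd

end Vale.Agent.Lib.P160.H16
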