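import Vale.Agent.Lib.P160.helper4.SSDefs

/-!
# P160, piece SS-3: sets with few descents in the lower half are exponentially rare

`bad_count`: the number of subsets `S` of `Fin n` with `128 * desc n S < n` is at most
`C * 2 ^ n / (n * sqrt n)`.  Proof: the pairs `(2 i, 2 i + 1)`, `i < n / 4`, are disjoint and each
is a descent with probability `1 / 4`; the weight `(1 / 2) ^ (number of descent pairs)` has total
mass `(7 / 8) ^ (n / 4) * 2 ^ n` (toggling argument), and Markov's inequality finishes.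
-/

namespace Vale.Agent.Lib.P160.H16

open Finset Vale.Agent.Lib.P160 Vale.Agent.Lib.P160.H4

theorem bc_tog_invol {α : Type} [DecidableEq α] (a : α) :
    Function.Involutive (fun S : Finset α => symmDiff S {a}) :=
  fun S => symmDiff_symmDiff_cancel_right {a} S

theorem bc_half_sum {α : Type} [Fintype α] [DecidableEq α] (a : α) (w : Finset α → ℝ)
    (hw : ∀ S, w (symmDiff S {a}) = w S) :
    ∑ S : Finset α, (if a ∈ S then w S else 0) = (1 / 2) * ∑ S : Finset α, w S := by
  have h1 : ∑ S : Finset α, (if a ∈ S then w S else 0) =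
      ∑ S : Finset α, (if a ∉ S then w S else 0) := by
    have h := Equiv.sum_comp (bc_tog_invol a).toPerm (fun S : Finset α => if a ∈ S then w S else 0)
    rw [← h]
    refine Finset.sum_congr rfl fun S _ => ?_
    show (if a ∈ symmDiff S {a} then w (symmDiff S {a}) else 0) = _
    rw [hw]
    by_cases h' : a ∈ S <;> simp [Finset.mem_symmDiff, h']
  have h2 : ∑ S : Finset α, w S = ∑ S : Finset α, (if a ∈ S then w S else 0) +
      ∑ S : Finset α, (if a ∉ S then w S else 0) := by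
    rw [← Finset.sum_add_distrib]
    refine Finset.sum_congr rfl fun S _ => ?_
    by_cases h' : a ∈ S <;> simp [h']
  linarith

theorem bc_quarter_sum {α : Type} [Fintype α] [DecidableEq α] (a b : α) (hab : a ≠ b)
    (w : Finset α → ℝ) (hwa : ∀ S, w (symmDiff S {a}) = w S)
    (hwb : ∀ S, w (symmDiff S {b}) = w S) :
    ∑ S : Finset α, (if a ∈ S ∧ b ∉ S then w S else 0) = (1 / 4) * ∑ S : Finset α, w S := by
  have hb := bc_half_sum b w hwb
  have ha := bc_half_sum a (fun S => if b ∉ S then w S else 0) (by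
    intro S
    have e : b ∈ symmDiff S {a} ↔ b ∈ S := by simp [Finset.mem_symmDiff, hab.symm]
    show (if b ∉ symmDiff S {a} then w (symmDiff S {a}) else 0) = if b ∉ S then w S else 0
    rw [hwa]
    by_cases h' : b ∈ S <;> simp [e, h'])
  have h3 : ∑ S : Finset α, (if b ∉ S then w S else 0) =
      ∑ S : Finset α, w S - ∑ S : Finset α, (if b ∈ S then w S else 0) := by
    rw [← Finset.sum_sub_distrib]
    refine Finset.sum_congr rfl fun S _ => ?_
    by_cases h' : b ∈ S <;> simp [h']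
  have h4 : ∑ S : Finset α, (if a ∈ S ∧ b ∉ S then w S else 0) =
      ∑ S : Finset α, (if a ∈ S then (if b ∉ S then w S else 0) else 0) := by
    refine Finset.sum_congr rfl fun S _ => ?_
    by_cases h1 : a ∈ S <;> by_cases h2 : b ∈ S <;> simp [h1, h2]
  rw [h4, ha, h3, hb]
  ring

/-- The index `k mod n`. -/
def bc_ix (n : ℕ) (hn : 0 < n) (k : ℕ) : Fin n := ⟨k % n, Nat.mod_lt k hn⟩

theorem bc_ix_val (n : ℕ) (hn : 0 < n) (k : ℕ) (hk : k < n) : (bc_ix n hn k).val = k :=
  Nat.mod_eq_of_lt hk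

/-- Weight `(1 / 2) ^ (number of descent pairs among the first m pairs)`. -/
noncomputable def bc_W (n : ℕ) (hn : 0 < n) (m : ℕ) (S : Finset (Fin n)) : ℝ :=
  ∏ i ∈ range m,
    (if bc_ix n hn (2 * i) ∈ S ∧ bc_ix n hn (2 * i + 1) ∉ S then (1 / 2 : ℝ) else 1)

theorem bc_W_nonneg (n : ℕ) (hn : 0 < n) (m : ℕ) (S : Finset (Fin n)) : 0 ≤ bc_W n hn m S := by
  unfold bc_W
  refine Finset.prod_nonneg fun i _ => ?_
  split_ifs <;> norm_num

theorem bc_W_tog (n : ℕ) (hn : 0 < n) (m c : ℕ) (hc : 2 * m ≤ c) (hcn : c < n)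
    (S : Finset (Fin n)) :
    bc_W n hn m (symmDiff S {bc_ix n hn c}) = bc_W n hn m S := by
  unfold bc_W
  refine Finset.prod_congr rfl fun i hi => ?_
  have hi' : i < m := Finset.mem_range.mp hi
  have h1 : bc_ix n hn (2 * i) ≠ bc_ix n hn c := by
    intro h
    have h' := congrArg Fin.val h
    rw [bc_ix_val n hn _ (by omega), bc_ix_val n hn _ hcn] at h'
    omega
  have h2 : bc_ix n hn (2 * i + 1) ≠ bc_ix n hn c := by
    intro h
    have h' := congrArg Fin.val h
    rw [bc_ix_val n hn _ (by omega), bc_ix_val n hn _ hcn] at h'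
    omega
  have e1 : bc_ix n hn (2 * i) ∈ symmDiff S {bc_ix n hn c} ↔ bc_ix n hn (2 * i) ∈ S := by
    simp [Finset.mem_symmDiff, h1]
  have e2 : bc_ix n hn (2 * i + 1) ∈ symmDiff S {bc_ix n hn c} ↔
      bc_ix n hn (2 * i + 1) ∈ S := by
    simp [Finset.mem_symmDiff, h2]
  simp only [e1, e2]

theorem bc_W_sum (n : ℕ) (hn : 0 < n) (m : ℕ) (hm : 4 * m ≤ n) :
    ∑ S : Finset (Fin n), bc_W n hn m S = (7 / 8) ^ m * 2 ^ n := by
  induction m with
  | zero =>
    simp [bc_W]
  | succ m ih =>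
    have ihm := ih (by omega)
    have hstep : ∀ S : Finset (Fin n), bc_W n hn (m + 1) S = bc_W n hn m S - (1 / 2) *
        (if bc_ix n hn (2 * m) ∈ S ∧ bc_ix n hn (2 * m + 1) ∉ S then bc_W n hn m S else 0) := by
      intro S
      unfold bc_W
      rw [Finset.prod_range_succ]
      by_cases h : bc_ix n hn (2 * m) ∈ S ∧ bc_ix n hn (2 * m + 1) ∉ S
      · rw [if_pos h, if_pos h]
        ring
      · rw [if_neg h, if_neg h]
        ring
    have hne : bc_ix n hn (2 * m) ≠ bc_ix n hn (2 * m + 1) := by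
      intro h
      have h' := congrArg Fin.val h
      rw [bc_ix_val n hn _ (by omega), bc_ix_val n hn _ (by omega)] at h'
      omega
    have hq := bc_quarter_sum (bc_ix n hn (2 * m)) (bc_ix n hn (2 * m + 1)) hne (bc_W n hn m)
      (fun S => bc_W_tog n hn m (2 * m) le_rfl (by omega) S)
      (fun S => bc_W_tog n hn m (2 * m + 1) (by omega) (by omega) S)
    rw [Finset.sum_congr rfl (fun S _ => hstep S), Finset.sum_sub_distrib, ← Finset.mul_sum, hq,
      ihm]
    ring

theorem bc_W_eq (n : ℕ) (hn : 0 < n) (m : ℕ) (S : Finset (Fin n)) :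
    bc_W n hn m S = (1 / 2 : ℝ) ^
      ((range m).filter fun i => bc_ix n hn (2 * i) ∈ S ∧ bc_ix n hn (2 * i + 1) ∉ S).card := by
  unfold bc_W
  rw [Finset.prod_ite, Finset.prod_const, Finset.prod_const_one, mul_one]

theorem bc_X_le_desc (n : ℕ) (hn : 0 < n) (N : ℕ) (hN : 4 * N ≤ n) (S : Finset (Fin n)) :
    ((range N).filter fun i => bc_ix n hn (2 * i) ∈ S ∧ bc_ix n hn (2 * i + 1) ∉ S).card ≤
      desc n S := by
  unfold desc
  apply Finset.card_le_card_of_injOn (fun i => bc_ix n hn (2 * i))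
  · intro i hi
    have hi' := Finset.mem_filter.mp (Finset.mem_coe.mp hi)
    have hiN : i < N := Finset.mem_range.mp hi'.1
    rw [Finset.mem_coe, Finset.mem_filter]
    refine ⟨Finset.mem_univ _, ?_, hi'.2.1, ?_⟩
    · rw [bc_ix_val n hn _ (by omega)]
      omega
    · intro j hj
      rw [bc_ix_val n hn _ (by omega)] at hj
      have hje : j = bc_ix n hn (2 * i + 1) := by
        apply Fin.ext
        rw [bc_ix_val n hn _ (by omega)]
        exact hj
      rw [hje]
      exact hi'.2.2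
  · intro i hi i' hi' h
    have hiN : i < N := Finset.mem_range.mp (Finset.mem_filter.mp (Finset.mem_coe.mp hi)).1
    have hiN' : i' < N := Finset.mem_range.mp (Finset.mem_filter.mp (Finset.mem_coe.mp hi')).1
    have h' := congrArg Fin.val h
    simp only at h'
    rw [bc_ix_val n hn _ (by omega), bc_ix_val n hn _ (by omega)] at h'
    omega

theorem bc_bad_le (n : ℕ) (hn : 0 < n) :
    (((univ : Finset (Finset (Fin n))).filter fun S => 128 * desc n S < n).card : ℝ) ≤
      2 ^ (n / 128) * ((7 / 8) ^ (n / 4) * 2 ^ n) := by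
  have hN : 4 * (n / 4) ≤ n := Nat.mul_div_le n 4
  have hsum := bc_W_sum n hn (n / 4) hN
  have hbad : ∀ S ∈ (univ : Finset (Finset (Fin n))).filter (fun S => 128 * desc n S < n),
      (1 / 2 : ℝ) ^ (n / 128) ≤ bc_W n hn (n / 4) S := by
    intro S hS
    have hd : 128 * desc n S < n := (Finset.mem_filter.mp hS).2
    rw [bc_W_eq]
    apply pow_le_pow_of_le_one (by norm_num) (by norm_num)
    have hX := bc_X_le_desc n hn (n / 4) hN S
    omega
  have h1 : (((univ : Finset (Finset (Fin n))).filter fun S => 128 * desc n S < n).card : ℝ) *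
      (1 / 2 : ℝ) ^ (n / 128) ≤
      ∑ S ∈ (univ : Finset (Finset (Fin n))).filter (fun S => 128 * desc n S < n),
        bc_W n hn (n / 4) S := by
    rw [← nsmul_eq_mul, ← Finset.sum_const]
    exact Finset.sum_le_sum hbad
  have h2 : ∑ S ∈ (univ : Finset (Finset (Fin n))).filter (fun S => 128 * desc n S < n),
      bc_W n hn (n / 4) S ≤ ∑ S : Finset (Fin n), bc_W n hn (n / 4) S :=
    Finset.sum_le_sum_of_subset_of_nonneg (Finset.filter_subset _ _)
      (fun S _ _ => bc_W_nonneg n hn _ S)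
  have h3 := h1.trans (h2.trans hsum.le)
  have e : (((univ : Finset (Finset (Fin n))).filter fun S => 128 * desc n S < n).card : ℝ) =
      (((univ : Finset (Finset (Fin n))).filter fun S => 128 * desc n S < n).card : ℝ) *
        (1 / 2 : ℝ) ^ (n / 128) * 2 ^ (n / 128) := by
    rw [mul_assoc, ← mul_pow]
    norm_num
  rw [e]
  calc (((univ : Finset (Finset (Fin n))).filter fun S => 128 * desc n S < n).card : ℝ) *
        (1 / 2 : ℝ) ^ (n / 128) * 2 ^ (n / 128)
      ≤ (7 / 8) ^ (n / 4) * 2 ^ n * 2 ^ (n / 128) :=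
        mul_le_mul_of_nonneg_right h3 (by positivity)
    _ = 2 ^ (n / 128) * ((7 / 8) ^ (n / 4) * 2 ^ n) := by ring

theorem bad_count : ∃ C : ℝ, 0 < C ∧ ∀ n : ℕ,
    (((univ : Finset (Finset (Fin n))).filter fun S => 128 * desc n S < n).card : ℝ) *
      ((n : ℝ) * Real.sqrt n) ≤ C * 2 ^ n := by
  refine ⟨16384, by norm_num, fun n => ?_⟩
  rcases Nat.eq_zero_or_pos n with rfl | hn
  · simp
  have hb := bc_bad_le n hn
  obtain ⟨B, hB⟩ : ∃ B : ℝ, B =
      (((univ : Finset (Finset (Fin n))).filter fun S => 128 * desc n S < n).card : ℝ) :=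
    ⟨_, rfl⟩
  rw [← hB] at hb ⊢
  have hB0 : 0 ≤ B := by
    rw [hB]
    exact Nat.cast_nonneg _
  obtain ⟨q, hq⟩ : ∃ q : ℕ, q = n / 128 := ⟨_, rfl⟩
  rw [← hq] at hb
  have hnq : n ≤ 128 * (q + 1) := by omega
  have hN : 32 * q ≤ n / 4 := by omega
  have hn1 : (1 : ℝ) ≤ (n : ℝ) := by exact_mod_cast hn
  have hsq : Real.sqrt n ≤ n := by
    rw [Real.sqrt_le_iff]
    constructor
    · linarith
    · nlinarith
  have h78 : (7 / 8 : ℝ) ^ (n / 4) ≤ (7 / 8) ^ (32 * q) :=
    pow_le_pow_of_le_one (by norm_num) (by norm_num) hN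
  have hc : (2 : ℝ) ^ q * (7 / 8) ^ (32 * q) ≤ (1 / 32) ^ q := by
    rw [pow_mul, ← mul_pow]
    apply pow_le_pow_left₀ (by positivity)
    norm_num
  have hq2 : ((q : ℝ) + 1) ^ 2 ≤ 4 ^ q := by
    have h1 : (q : ℝ) + 1 ≤ 2 ^ q := by
      have h2 : q + 1 ≤ 2 ^ q := Nat.lt_two_pow_self
      exact_mod_cast h2
    calc ((q : ℝ) + 1) ^ 2 ≤ ((2 : ℝ) ^ q) ^ 2 := pow_le_pow_left₀ (by positivity) h1 2
      _ = 4 ^ q := by
          rw [← pow_mul, mul_comm, pow_mul]
          norm_num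
  have hn2 : (n : ℝ) * n ≤ 16384 * 4 ^ q := by
    have h1 : (n : ℝ) ≤ 128 * ((q : ℝ) + 1) := by exact_mod_cast hnq
    nlinarith
  have e1 : (2 : ℝ) ^ q * ((7 / 8) ^ (n / 4) * 2 ^ n) ≤ (1 / 32) ^ q * 2 ^ n := by
    have h1 : (2 : ℝ) ^ q * (7 / 8) ^ (n / 4) ≤ (1 / 32) ^ q :=
      le_trans (mul_le_mul_of_nonneg_left h78 (by positivity)) hc
    calc (2 : ℝ) ^ q * ((7 / 8) ^ (n / 4) * 2 ^ n) = (2 ^ q * (7 / 8) ^ (n / 4)) * 2 ^ n := by
          ring
      _ ≤ (1 / 32) ^ q * 2 ^ n := mul_le_mul_of_nonneg_right h1 (by positivity)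
  calc B * ((n : ℝ) * Real.sqrt n) ≤ B * ((n : ℝ) * n) := by
        apply mul_le_mul_of_nonneg_left _ hB0
        exact mul_le_mul_of_nonneg_left hsq (by linarith)
    _ ≤ (2 ^ q * ((7 / 8) ^ (n / 4) * 2 ^ n)) * ((n : ℝ) * n) :=
        mul_le_mul_of_nonneg_right hb (by nlinarith)
    _ ≤ ((1 / 32) ^ q * 2 ^ n) * (16384 * 4 ^ q) :=
        mul_le_mul e1 hn2 (by nlinarith) (by positivity)
    _ = 16384 * 2 ^ n * ((1 / 32 : ℝ) ^ q * 4 ^ q) := by ring
    _ ≤ 16384 * 2 ^ n * 1 := by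
        apply mul_le_mul_of_nonneg_left _ (by positivity)
        rw [← mul_pow]
        exact pow_le_one₀ (by norm_num) (by norm_num)
    _ = 16384 * 2 ^ n := by ring

end Vale.Agent.Lib.P160.H16
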